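import Vale.Agent.P235.K5.H490.Face
import Vale.Agent.P235.K5.Wagner

/-!
# (W8): a 3-connected graph with a `V_8` minor and no `K_5` minor has 8 vertices (helper381)

After helper427 (#17256): minimal models, no hubs, no spanning models.
-/

set_option linter.all false

namespace Vale.Agent.P235.K5.H381

open SimpleGraph Vale.Agent.P235.H134 Vale.Agent.P235.H56
open Vale.Agent.P235.K5.H490

variable {V : Type} {G : SimpleGraph V}

/-- a vertex other than `s` which is no cut vertex -/
theorem noncut [Finite V] {X : Set V} (hX : (G.induce X).Connected) {s v0 : V} (hs : s ∈ X)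
    (hv : v0 ∈ X) (hne : v0 ≠ s) : ∃ v ∈ X, v ≠ s ∧ (G.induce (X \ {v})).Connected := by
  classical
  obtain ⟨Y, ⟨hYX, hsY, hY, hYc⟩, hmax⟩ := Set.exists_max_image
    {Y : Set V | Y ⊆ X ∧ s ∈ Y ∧ Y ≠ X ∧ (G.induce Y).Connected} Set.ncard (Set.toFinite _)
    ⟨{s}, by
      refine ⟨by simpa using hs, rfl, ?_, cn_single s⟩
      intro h
      exact hne (by simpa using (h.symm ▸ hv : v0 ∈ ({s} : Set V)))⟩
  have hnc : ¬ Clo G X Y := fun h => hY (Set.Subset.antisymm hYX
    ((cn_iff.1 hX).2 Y hYX ⟨s, hsY⟩ h))
  unfold Clo at hnc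
  push Not at hnc
  obtain ⟨x, hx, y, hy, hxy, hyY⟩ := hnc
  have hZ : Y ∪ {y} = X := by
    by_contra hZ
    have := hmax (Y ∪ {y}) ⟨Set.union_subset hYX (by simpa using hy), Or.inl hsY, hZ,
      cn_union hYc (cn_single y) ⟨x, hx, y, rfl, hxy⟩⟩
    have h2 : Y.ncard < (Y ∪ {y}).ncard := Set.ncard_lt_ncard
      ⟨Set.subset_union_left, fun h => hyY (h (Or.inr rfl))⟩ (Set.toFinite _)
    omega
  refine ⟨y, hy, fun h => hyY (h ▸ hsY), ?_⟩
  have : X \ {y} = Y := by
    rw [← hZ]
    ext z
    constructor
    · rintro ⟨h | h, h'⟩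
      · exact h
      · exact absurd h h'
    · intro h
      exact ⟨Or.inl h, fun e => hyY ((Set.mem_singleton_iff.1 e) ▸ h)⟩
  rw [this]
  exact hYc

theorem touch_one {X : Set V} (hX : (G.induce X).Connected) {v w : V} (hv : v ∈ X) (hw : w ∈ X)
    (hvw : w ≠ v) : Tch G (X \ {v}) {v} := by
  by_contra hno
  have := (cn_iff.1 hX).2 (X \ {v}) Set.diff_subset ⟨w, hw, hvw⟩ (by
    intro x hx y hy hxy
    refine ⟨hy, fun h => hno ⟨x, hx, y, h, hxy⟩⟩)
  exact (this hv).2 rfl

theorem third : ∀ a b : Fin 3, a ≠ b → ∃ t, ∀ l, l ≠ t → l = a ∨ l = b := by decide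

/-- one vertex loses at most one of three neighbours -/
theorem three [Finite V] {X : Set V} (hX : (G.induce X).Connected) {a b : V} (ha : a ∈ X)
    (hb : b ∈ X) (hab : a ≠ b) (N : Fin 3 → Set V) (hN : ∀ k, Tch G X (N k)) :
    ∃ v ∈ X, (G.induce (X \ {v})).Connected ∧ Tch G (X \ {v}) {v} ∧ ∃ k,
      (∀ l, l ≠ k → Tch G (X \ {v}) (N l)) ∧ (Tch G (X \ {v}) (N k) ∨ Tch G {v} (N k)) := by
  obtain ⟨v, hv, hva, hvc⟩ := noncut hX ha hb hab.symm
  obtain ⟨w, hw, hwv, hwc⟩ := noncut hX hv ha hva.symm
  have hor : ∀ l, Tch G (X \ {v}) (N l) ∨ Tch G (X \ {w}) (N l) := by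
    intro l
    obtain ⟨x, hx, y, hy, hxy⟩ := hN l
    by_cases hxv : x = v
    · exact Or.inr ⟨x, ⟨hx, fun h => hwv ((Set.mem_singleton_iff.1 h).symm.trans hxv)⟩, y, hy, hxy⟩
    · exact Or.inl ⟨x, ⟨hx, hxv⟩, y, hy, hxy⟩
  have hlast : ∀ v l, Tch G (X \ {v}) (N l) ∨ Tch G {v} (N l) := by
    intro v l
    obtain ⟨x, hx, y, hy, hxy⟩ := hN l
    by_cases hxv : x = v
    · exact Or.inr ⟨x, hxv, y, hy, hxy⟩
    · exact Or.inl ⟨x, ⟨hx, hxv⟩, y, hy, hxy⟩
  by_cases h1 : ∃ k, ∀ l, l ≠ k → Tch G (X \ {v}) (N l)
  · obtain ⟨k, hk⟩ := h1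
    exact ⟨v, hv, hvc, touch_one hX hv ha hva.symm, k, hk, hlast v k⟩
  · refine ⟨w, hw, hwc, touch_one hX hw hv hwv.symm, ?_⟩
    push Not at h1
    obtain ⟨l0, -, h0⟩ := h1 0
    obtain ⟨l1, h10, h1'⟩ := h1 l0
    obtain ⟨t, ht⟩ := third l0 l1 h10.symm
    refine ⟨t, fun l hl => ?_, hlast w t⟩
    rcases ht l hl with rfl | rfl
    · exact (hor l).resolve_left h0
    · exact (hor l).resolve_left h1'

section Model

variable {L : Type}

/-- the vertices with label `a` -/
def fib (f : V → Option L) (a : L) : Set V := {x | f x = some a}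

/-- a model of `R` as a labelling -/
structure Model (G : SimpleGraph V) (R : L → L → Prop) (f : V → Option L) : Prop where
  c : ∀ a, (G.induce (fib f a)).Connected
  t : ∀ a b, R a b → Tch G (fib f a) (fib f b)

variable {R : L → L → Prop} {f : V → Option L}

open Classical in
theorem Model.src (hM : Model G R f) (hR : ∀ a b, R a b → R b a) (hI : ∀ a, ¬ R a a) {v : V}
    {i : L} (hv : f v = some i) (hc : (G.induce (fib f i \ {v})).Connected) (m : Option L)
    (hm : m ≠ some i) (hm' : ∀ k, m = some k → Tch G (fib f k) {v})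
    (ht : ∀ b, R i b → Tch G (fib f i \ {v}) (fib (Function.update f v m) b)) :
    Model G R (Function.update f v m) := by
  have e1 : fib (Function.update f v m) i = fib f i \ {v} := by
    ext x
    by_cases hx : x = v
    · subst hx
      simp [fib, hm]
    · simp [fib, Function.update_of_ne hx, hx]
  have e2 : ∀ b, b ≠ i → fib f b ⊆ fib (Function.update f v m) b := by
    intro b hb x hx
    have hxv : x ≠ v := by
      rintro rfl
      exact hb (Option.some.inj (hx.symm.trans hv))
    show Function.update f v m x = some b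
    rw [Function.update_of_ne hxv]
    exact hx
  constructor
  · intro b
    by_cases hb : b = i
    · subst hb
      rw [e1]
      exact hc
    · by_cases hmb : m = some b
      · have e3 : fib (Function.update f v m) b = fib f b ∪ {v} := by
          ext x
          by_cases hx : x = v
          · subst hx
            simp [fib, hmb]
          · simp [fib, Function.update_of_ne hx, hx]
        rw [e3]
        exact cn_union (hM.c b) (cn_single v) (hm' b hmb)
      · have e3 : fib (Function.update f v m) b = fib f b := by
          ext x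
          by_cases hx : x = v
          · subst hx
            simp only [fib, Set.mem_setOf_eq, Function.update_self, hmb, false_iff]
            intro h
            exact hb (Option.some.inj (h.symm.trans hv))
          · simp [fib, Function.update_of_ne hx]
        rw [e3]
        exact hM.c b
  · intro a b hab
    by_cases ha : a = i
    · subst ha
      rw [e1]
      exact ht b hab
    · by_cases hb : b = i
      · subst hb
        rw [e1]
        exact (ht a (hR _ _ hab)).symm
      · exact (hM.t a b hab).mono (e2 a ha) (e2 b hb)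

open Classical in
theorem Model.grow (hM : Model G R f) {v : V} (hv : f v = none) (q : L)
    (hq : Tch G (fib f q) {v}) : Model G R (Function.update f v (some q)) := by
  have e2 : ∀ b, fib f b ⊆ fib (Function.update f v (some q)) b := by
    intro b x hx
    have hxv : x ≠ v := by
      rintro rfl
      have : f x = some b := hx
      rw [hv] at this
      cases this
    show Function.update f v (some q) x = some b
    rw [Function.update_of_ne hxv]
    exact hx
  constructor
  · intro b
    by_cases hmb : q = b
    · subst hmb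
      have e3 : fib (Function.update f v (some q)) q = fib f q ∪ {v} := by
        ext x
        by_cases hx : x = v
        · subst hx
          simp [fib]
        · simp [fib, Function.update_of_ne hx, hx]
      rw [e3]
      exact cn_union (hM.c q) (cn_single v) hq
    · have e3 : fib (Function.update f v (some q)) b = fib f b := by
        ext x
        by_cases hx : x = v
        · subst hx
          simp [fib, hmb, hv]
        · simp [fib, Function.update_of_ne hx]
      rw [e3]
      exact hM.c b
  · intro a b hab
    exact (hM.t a b hab).mono (e2 a) (e2 b)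

open Classical in
/-- give all vertices of a connected set `D` (with the label `d`) the label `a` -/
theorem Model.join (hM : Model G R f) {D : Set V} (hD : (G.induce D).Connected)
    (hD' : ∀ x ∈ D, f x = none) (a : L) (hq : Tch G D (fib f a)) :
    Model G R (fun x => if x ∈ D then some a else f x) := by
  have e2 : ∀ b, fib f b ⊆ fib (fun x => if x ∈ D then some a else f x) b := by
    intro b x hx
    have hxv : x ∉ D := by
      intro h
      have : f x = some b := hx
      rw [hD' x h] at this
      cases this
    show (if x ∈ D then some a else f x) = some b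
    rw [if_neg hxv]
    exact hx
  constructor
  · intro b
    by_cases hmb : a = b
    · subst hmb
      have e3 : fib (fun x => if x ∈ D then some a else f x) a = D ∪ fib f a := by
        ext x
        by_cases hx : x ∈ D
        · simp [fib, hx]
        · simp [fib, hx]
      rw [e3]
      exact cn_union hD (hM.c a) hq
    · have e3 : fib (fun x => if x ∈ D then some a else f x) b = fib f b := by
        ext x
        by_cases hx : x ∈ D
        · simp [fib, hmb, hD' x hx, hx]
        · simp [fib, hx]
      rw [e3]
      exact hM.c b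
  · intro a b hab
    exact (hM.t a b hab).mono (e2 a) (e2 b)

end Model

/-! ### `V_8` -/

/-- adjacency in `V_8` -/
abbrev v8 (x y : Fin 8) : Prop := y = x + 1 ∨ y = x + 7 ∨ y = x + 4

theorem v8_iff (a b : Fin 8) : W.V8.Adj a b ↔ v8 a b := by
  have : W.V8.Adj a b ↔ a ≠ b ∧ ((b = a + 1 ∨ b = a + 4) ∨ (a = b + 1 ∨ a = b + 4)) := by
    simp [W.V8, SimpleGraph.fromRel_adj]
  rw [this]
  clear this
  revert a b
  decide

theorem v8_symm : ∀ a b, v8 a b → v8 b a := by decide

theorem v8_irr : ∀ a, ¬ v8 a a := by decide

theorem v8_tri : ∀ i j k : Fin 8, v8 i j → ¬ (v8 i k ∧ v8 j k) := by decide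

/-- the three neighbours -/
def nb (i : Fin 8) : Fin 3 → Fin 8 := ![i + 1, i + 7, i + 4]

theorem nb_all : ∀ i b : Fin 8, v8 i b → ∃ k, b = nb i k := by decide

theorem nb_adj : ∀ (i : Fin 8) (k : Fin 3), v8 i (nb i k) := by decide

abbrev EE (a b x y : Fin 8) : Prop := v8 x y ∨ (x = a ∧ y = b) ∨ (x = b ∧ y = a)

abbrev Good (a b : Fin 8) (p q : Fin 5 → Fin 8) : Prop :=
  (∀ i, p i = q i ∨ v8 (p i) (q i)) ∧ ∀ i j, i < j → p i ≠ p j ∧ p i ≠ q j ∧ q i ≠ p j ∧
    q i ≠ q j ∧ (EE a b (p i) (p j) ∨ EE a b (p i) (q j) ∨ EE a b (q i) (p j) ∨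
      EE a b (q i) (q j))

theorem good2 : ∀ a, Good a (a + 2) (fun i => ![1, 3, 6, 0, 2] i + a)
    (fun i => ![5, 4, 7, 0, 2] i + a) := by decide

theorem good3 : ∀ a, Good a (a + 3) (fun i => ![1, 4, 6, 0, 3] i + a)
    (fun i => ![2, 5, 7, 0, 3] i + a) := by decide

theorem nonadj : ∀ a b : Fin 8, a ≠ b → ¬ v8 a b → b = a + 2 ∨ b = a + 3 ∨ a = b + 2 ∨
    a = b + 3 := by decide

theorem chord_aux {f : V → Option (Fin 8)} (hM : Model G v8 f) {a b : Fin 8}
    {p q : Fin 5 → Fin 8} (hg : Good a b p q) (h : Tch G (fib f a) (fib f b)) :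
    IsMinor (⊤ : SimpleGraph (Fin 5)) G := by
  have hd : ∀ x y : Fin 8, x ≠ y → Disjoint (fib f x) (fib f y) := by
    intro x y hxy
    rw [Set.disjoint_left]
    intro z hz hz'
    exact hxy (Option.some.inj ((show f z = some x from hz).symm.trans hz'))
  have hE : ∀ x y : Fin 8, EE a b x y → Tch G (fib f x) (fib f y) := by
    rintro x y (h1 | ⟨rfl, rfl⟩ | ⟨rfl, rfl⟩)
    · exact hM.t x y h1
    · exact h
    · exact h.symm
  refine k5_of (fun i => fib f (p i) ∪ fib f (q i)) ?_ ?_
  · intro i
    rcases hg.1 i with h1 | h1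
    · show (G.induce (fib f (p i) ∪ fib f (q i))).Connected
      rw [h1, Set.union_self]
      exact hM.c _
    · exact cn_union (hM.c _) (hM.c _) (hM.t _ _ h1)
  · intro i j hij
    obtain ⟨h1, h2, h3, h4, h5⟩ := hg.2 i j hij
    constructor
    · rw [Set.disjoint_union_left, Set.disjoint_union_right, Set.disjoint_union_right]
      exact ⟨⟨hd _ _ h1, hd _ _ h2⟩, hd _ _ h3, hd _ _ h4⟩
    · rcases h5 with h5 | h5 | h5 | h5
      · exact (hE _ _ h5).mono Set.subset_union_left Set.subset_union_left
      · exact (hE _ _ h5).mono Set.subset_union_left Set.subset_union_right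
      · exact (hE _ _ h5).mono Set.subset_union_right Set.subset_union_left
      · exact (hE _ _ h5).mono Set.subset_union_right Set.subset_union_right

/-- `V_8` with one more edge -/
theorem chord {f : V → Option (Fin 8)} (hM : Model G v8 f) {a b : Fin 8} (hab : a ≠ b)
    (hn : ¬ v8 a b) (h : Tch G (fib f a) (fib f b)) : IsMinor (⊤ : SimpleGraph (Fin 5)) G := by
  rcases nonadj a b hab hn with rfl | rfl | rfl | rfl
  · exact chord_aux hM (good2 a) h
  · exact chord_aux hM (good3 a) h
  · exact chord_aux hM (good2 b) h.symm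
  · exact chord_aux hM (good3 b) h.symm

/-! ### a subdivided edge -/

/-- `V_8` with the edge `i j` subdivided by `none` -/
def S (i j : Fin 8) : Option (Fin 8) → Option (Fin 8) → Prop
  | none, none => False
  | none, some b => b = i ∨ b = j
  | some a, none => a = i ∨ a = j
  | some a, some b => v8 a b ∧ ¬ (a = i ∧ b = j) ∧ ¬ (a = j ∧ b = i)

theorem S_symm (i j : Fin 8) : ∀ a b, S i j a b → S i j b a := by
  rintro (_ | a) (_ | b) h
  · exact h
  · exact h
  · exact h
  · exact ⟨v8_symm _ _ h.1, fun h' => h.2.2 ⟨h'.2, h'.1⟩, fun h' => h.2.1 ⟨h'.2, h'.1⟩⟩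

theorem S_swap (i j : Fin 8) : ∀ a b, S i j a b → S j i a b := by
  rintro (_ | a) (_ | b) h
  · exact h
  · exact h.symm
  · exact h.symm
  · exact ⟨h.1, h.2.2, h.2.1⟩

theorem S_irr (i j : Fin 8) : ∀ a, ¬ S i j a a := by
  rintro (_ | a) h
  · exact h
  · exact v8_irr a h.1

theorem S_nb : ∀ i j : Fin 8, v8 i j → ∃ k1 k2 : Fin 8, k1 ≠ i ∧ k1 ≠ j ∧ k2 ≠ i ∧ k2 ≠ j ∧
    v8 i k1 ∧ v8 i k2 ∧ ∀ b, v8 i b → b ≠ j → b = k1 ∨ b = k2 := by decide

/-- the potential -/
noncomputable def psi (i j : Fin 8) (f : V → Option (Option (Fin 8))) : ℕ :=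
  {x | f x = some (some i) ∨ f x = some (some j)}.ncard + {x | f x ≠ some none}.ncard

theorem psi_swap (i j : Fin 8) (f : V → Option (Option (Fin 8))) : psi i j f = psi j i f := by
  unfold psi
  congr 2
  ext x
  exact or_comm

open Classical in
theorem psi_src [Finite V] {i j : Fin 8} {f : V → Option (Option (Fin 8))} {v : V}
    (hv : f v = some (some i)) {m : Option (Option (Fin 8))} (h1 : m ≠ some (some i))
    (h2 : m ≠ some (some j)) : psi i j (Function.update f v m) < psi i j f := by
  have a1 : {x | Function.update f v m x = some (some i) ∨ Function.update f v m x =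
      some (some j)}.ncard < {x | f x = some (some i) ∨ f x = some (some j)}.ncard := by
    apply Set.ncard_lt_ncard _ (Set.toFinite _)
    constructor
    · intro x hx
      by_cases hxv : x = v
      · subst hxv
        exact Or.inl hv
      · simpa [Function.update_of_ne hxv] using hx
    · intro h
      have := h (Or.inl hv : v ∈ _)
      simp only [Set.mem_setOf_eq, Function.update_self] at this
      exact this.elim h1 h2
  have a2 : {x | Function.update f v m x ≠ some none}.ncard ≤ {x | f x ≠ some none}.ncard := by
    apply Set.ncard_le_ncard _ (Set.toFinite _)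
    intro x hx
    by_cases hxv : x = v
    · subst hxv
      show f x ≠ some none
      rw [hv]
      simp
    · simpa [Function.update_of_ne hxv] using hx
  unfold psi
  omega

open Classical in
theorem psi_grow [Finite V] {i j : Fin 8} {f : V → Option (Option (Fin 8))} {v : V}
    (hv : f v = none) : psi i j (Function.update f v (some none)) < psi i j f := by
  have a1 : {x | Function.update f v (some none) x = some (some i) ∨
      Function.update f v (some none) x = some (some j)}.ncard ≤
      {x | f x = some (some i) ∨ f x = some (some j)}.ncard := by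
    apply Set.ncard_le_ncard _ (Set.toFinite _)
    intro x hx
    by_cases hxv : x = v
    · subst hxv
      simp at hx
    · simpa [Function.update_of_ne hxv] using hx
  have a2 : {x | Function.update f v (some none) x ≠ some none}.ncard <
      {x | f x ≠ some none}.ncard := by
    apply Set.ncard_lt_ncard _ (Set.toFinite _)
    constructor
    · intro x hx
      by_cases hxv : x = v
      · subst hxv
        simp at hx
      · simpa [Function.update_of_ne hxv] using hx
    · intro h
      have : v ∈ {x | Function.update f v (some none) x ≠ some none} := h (by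
        show f v ≠ some none
        rw [hv]
        simp)
      simp at this
  unfold psi
  omega

theorem redu [Finite V] {i j : Fin 8} (hij : v8 i j) {f : V → Option (Option (Fin 8))}
    (hM : Model G (S i j) f) {a b : V} (ha : f a = some (some i)) (hb : f b = some (some i))
    (hab : a ≠ b) : ∃ f', Model G (S i j) f' ∧ psi i j f' < psi i j f := by
  classical
  obtain ⟨k1, k2, hk1, hk1', hk2, hk2', e1, e2, hall⟩ := S_nb i j hij
  let n : Fin 3 → Option (Fin 8) := ![none, some k1, some k2]
  have hn : ∀ b, S i j (some i) b → ∃ k, b = n k := by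
    rintro (_ | b) h
    · exact ⟨0, rfl⟩
    · have hbj : b ≠ j := fun e => h.2.1 ⟨rfl, e⟩
      rcases hall b h.1 hbj with rfl | rfl
      · exact ⟨1, rfl⟩
      · exact ⟨2, rfl⟩
  have hn' : ∀ k, S i j (some i) (n k) := by
    intro k
    fin_cases k
    · exact Or.inl rfl
    · exact ⟨e1, fun h => hk1' h.2, fun h => hk1 h.2⟩
    · exact ⟨e2, fun h => hk2' h.2, fun h => hk2 h.2⟩
  have hni : ∀ k, n k ≠ some i ∧ n k ≠ some j := by
    intro k
    fin_cases k
    · exact ⟨by simp [n], by simp [n]⟩
    · exact ⟨fun h => hk1 (Option.some.inj h), fun h => hk1' (Option.some.inj h)⟩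
    · exact ⟨fun h => hk2 (Option.some.inj h), fun h => hk2' (Option.some.inj h)⟩
  obtain ⟨v, hv, hc, htv, k, hk, hor⟩ := three (hM.c (some i)) ha hb hab
    (fun k => fib f (n k)) (fun k => hM.t _ _ (hn' k))
  have hv' : f v = some (some i) := hv
  by_cases hdrop : Tch G (fib f (some i) \ {v}) (fib f (n k))
  · refine ⟨Function.update f v none, ?_, psi_src hv' (by simp) (by simp)⟩
    refine hM.src (S_symm i j) (S_irr i j) hv' hc none (by simp) (by simp) ?_
    intro b hb
    have hbi : b ≠ some i := by
      rintro rfl
      exact S_irr i j _ hb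
    have hsub : fib f b ⊆ fib (Function.update f v none) b := by
      intro x hx
      have hxv : x ≠ v := by
        rintro rfl
        exact hbi (Option.some.inj ((show f x = some b from hx).symm.trans hv'))
      show Function.update f v none x = some b
      rw [Function.update_of_ne hxv]
      exact hx
    obtain ⟨l, rfl⟩ := hn b hb
    by_cases hlk : l = k
    · subst hlk
      exact hdrop.mono subset_rfl hsub
    · exact (hk l hlk).mono subset_rfl hsub
  · have hvk : Tch G {v} (fib f (n k)) := hor.resolve_left hdrop
    refine ⟨Function.update f v (some (n k)), ?_, psi_src hv'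
      (fun h => (hni k).1 (Option.some.inj h)) (fun h => (hni k).2 (Option.some.inj h))⟩
    refine hM.src (S_symm i j) (S_irr i j) hv' hc _
      (fun h => (hni k).1 (Option.some.inj h)) ?_ ?_
    · intro q hq
      obtain rfl := Option.some.inj hq
      exact hvk.symm
    · intro b hb
      have hbi : b ≠ some i := by
        rintro rfl
        exact S_irr i j _ hb
      have hsub : fib f b ⊆ fib (Function.update f v (some (n k))) b := by
        intro x hx
        have hxv : x ≠ v := by
          rintro rfl
          exact hbi (Option.some.inj ((show f x = some b from hx).symm.trans hv'))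
        show Function.update f v (some (n k)) x = some b
        rw [Function.update_of_ne hxv]
        exact hx
      obtain ⟨l, rfl⟩ := hn b hb
      by_cases hlk : n l = n k
      · refine htv.mono subset_rfl ?_
        rintro x rfl
        show Function.update f x (some (n k)) x = some (n l)
        rw [Function.update_self, hlk]
      · exact (hk l (fun e => hlk (e ▸ rfl))).mono subset_rfl hsub

theorem merge {i j k : Fin 8} (hij : v8 i j) {f : V → Option (Option (Fin 8))}
    (hM : Model G (S i j) f) (hki : k ≠ i) (hn : ¬ v8 i k)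
    (h : Tch G (fib f none) (fib f (some k))) : IsMinor (⊤ : SimpleGraph (Fin 5)) G := by
  classical
  let f' : V → Option (Fin 8) := fun x => if f x = some none then some i else (f x).join
  have e0 : ∀ a, a ≠ i → fib f' a = fib f (some a) := by
    intro a ha
    ext x
    show (if f x = some none then some i else (f x).join) = some a ↔ f x = some (some a)
    rcases hx : f x with _ | (_ | c)
    · simp
    · simp [ha.symm]
    · simp
  have e1 : fib f' i = fib f none ∪ fib f (some i) := by
    ext x
    show (if f x = some none then some i else (f x).join) = some i ↔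
      f x = some none ∨ f x = some (some i)
    rcases hx : f x with _ | (_ | c)
    · simp
    · simp
    · simp
  have hsub : ∀ a, fib f (some a) ⊆ fib f' a := by
    intro a
    by_cases ha : a = i
    · subst ha
      rw [e1]
      exact Set.subset_union_right
    · rw [e0 a ha]
  have hM' : Model G v8 f' := by
    constructor
    · intro a
      by_cases ha : a = i
      · subst ha
        rw [e1]
        exact cn_union (hM.c _) (hM.c _) (hM.t none (some a) (Or.inl rfl))
      · rw [e0 a ha]
        exact hM.c _
    · intro a b hab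
      by_cases h1 : a = i ∧ b = j
      · obtain ⟨rfl, rfl⟩ := h1
        refine (hM.t none (some b) (Or.inr rfl)).mono ?_ (hsub b)
        rw [e1]
        exact Set.subset_union_left
      · by_cases h2 : a = j ∧ b = i
        · obtain ⟨rfl, rfl⟩ := h2
          refine Tch.symm ((hM.t none (some a) (Or.inr rfl)).mono ?_ (hsub a))
          rw [e1]
          exact Set.subset_union_left
        · exact (hM.t (some a) (some b) ⟨hab, h1, h2⟩).mono (hsub a) (hsub b)
  refine chord hM' (Ne.symm hki) hn (h.mono ?_ (hsub k))
  rw [e1]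
  exact Set.subset_union_left

theorem v8a [Finite V] (h3 : Conn3 G) (h5 : ¬ IsMinor (⊤ : SimpleGraph (Fin 5)) G) (i j : Fin 8)
    (hij : v8 i j) : ∀ (n : ℕ) (f : V → Option (Option (Fin 8))), Model G (S i j) f →
      psi i j f = n → False := by
  classical
  intro n
  induction n using Nat.strong_induction_on with
  | _ n ih =>
    intro f hM hn
    have hswap : Model G (S j i) f := ⟨hM.c, fun a b hab => hM.t a b (S_swap j i a b hab)⟩
    have hi : ∀ a b, f a = some (some i) → f b = some (some i) → a = b := by
      intro a b ha hb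
      by_contra hab
      obtain ⟨f', hM', hlt⟩ := redu hij hM ha hb hab
      exact ih _ (hn ▸ hlt) f' hM' rfl
    have hj : ∀ a b, f a = some (some j) → f b = some (some j) → a = b := by
      intro a b ha hb
      by_contra hab
      obtain ⟨f', hM', hlt⟩ := redu (v8_symm _ _ hij) hswap ha hb hab
      rw [psi_swap j i, psi_swap j i] at hlt
      exact ih _ (hn ▸ hlt) f' ⟨hM'.c, fun a b hab => hM'.t a b (S_swap i j a b hab)⟩ rfl
    obtain ⟨k1, k2, hk1, hk1', -⟩ := S_nb i j hij
    have hne : ∀ a, ∃ x, f x = some a := by
      intro a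
      obtain ⟨x, hx⟩ := (cn_iff.1 (hM.c a)).1
      exact ⟨x, hx⟩
    obtain ⟨ui, hui⟩ := hne (some i)
    obtain ⟨uj, huj⟩ := hne (some j)
    obtain ⟨q0, hq0⟩ := hne none
    obtain ⟨y0, hy0⟩ := hne (some k1)
    have hout : ∃ x ∈ fib f none, ∃ y, G.Adj x y ∧ y ∉ fib f none ∧ y ≠ ui ∧ y ≠ uj := by
      by_contra hno
      push Not at hno
      have := h3 ui uj (fib f none) ⟨q0, hq0⟩
        (fun h => by
          have h' : f ui = some none := h
          rw [hui] at h'
          simp at h')
        (fun h => by
          have h' : f uj = some none := h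
          rw [huj] at h'
          simp at h') (by
        intro x hx y hxy
        by_cases h1 : y ∈ fib f none
        · exact Or.inl h1
        · by_cases h2 : y = ui
          · exact Or.inr (Or.inl h2)
          · exact Or.inr (Or.inr (hno x hx y hxy h1 h2))) y0
      rcases this with h | h | h
      · have h' : f y0 = some none := h
        rw [hy0] at h'
        simp at h'
      · rw [h, hui] at hy0
        exact hk1 (Option.some.inj (Option.some.inj hy0)).symm
      · rw [h, huj] at hy0
        exact hk1' (Option.some.inj (Option.some.inj hy0)).symm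
    obtain ⟨x, hx, y, hxy, hy, hyi, hyj⟩ := hout
    rcases hfy : f y with _ | (_ | k)
    · have hg := hM.grow hfy none ⟨x, hx, y, rfl, hxy⟩
      exact ih _ (hn ▸ psi_grow hfy) _ hg rfl
    · exact hy hfy
    · have hki : k ≠ i := by
        rintro rfl
        exact hyi (hi y ui hfy hui)
      have hkj : k ≠ j := by
        rintro rfl
        exact hyj (hj y uj hfy huj)
      have ht : Tch G (fib f none) (fib f (some k)) := ⟨x, hx, y, hfy, hxy⟩
      by_cases hik : v8 i k
      · have hjk : ¬ v8 j k := fun h => v8_tri i j k hij ⟨hik, h⟩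
        exact h5 (merge (v8_symm _ _ hij) hswap hkj hjk ht)
      · exact h5 (merge hij hM hki hik ht)

/-! ### the main induction -/

theorem shrink [Finite V] (h3 : Conn3 G) (h5 : ¬ IsMinor (⊤ : SimpleGraph (Fin 5)) G)
    {f : V → Option (Fin 8)} (hM : Model G v8 f) {i : Fin 8} {a b : V} (ha : f a = some i)
    (hb : f b = some i) (hab : a ≠ b) :
    ∃ f' : V → Option (Fin 8), Model G v8 f' ∧ {x | f' x ≠ none}.ncard < {x | f x ≠ none}.ncard := by
  classical
  obtain ⟨v, hv, hc, htv, k, hk, hor⟩ := three (hM.c i) ha hb hab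
    (fun k => fib f (nb i k)) (fun k => hM.t _ _ (nb_adj i k))
  have hv' : f v = some i := hv
  have hsub0 : ∀ b, b ≠ i → ∀ x ∈ fib f b, x ≠ v := by
    rintro b hb x hx rfl
    exact hb (Option.some.inj ((show f x = some b from hx).symm.trans hv'))
  by_cases hdrop : Tch G (fib f i \ {v}) (fib f (nb i k))
  · refine ⟨Function.update f v none, ?_, ?_⟩
    · refine hM.src v8_symm v8_irr hv' hc none (by simp) (by simp) ?_
      intro b hb
      have hbi : b ≠ i := by
        rintro rfl
        exact v8_irr _ hb
      have hsub : fib f b ⊆ fib (Function.update f v none) b := by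
        intro x hx
        show Function.update f v none x = some b
        rw [Function.update_of_ne (hsub0 b hbi x hx)]
        exact hx
      obtain ⟨l, rfl⟩ := nb_all i b hb
      by_cases hlk : l = k
      · subst hlk
        exact hdrop.mono subset_rfl hsub
      · exact (hk l hlk).mono subset_rfl hsub
    · apply Set.ncard_lt_ncard _ (Set.toFinite _)
      constructor
      · intro x hx
        by_cases hxv : x = v
        · subst hxv
          simp at hx
        · simpa [Function.update_of_ne hxv] using hx
      · intro h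
        have : v ∈ {x | Function.update f v none x ≠ none} := h (by
          show f v ≠ none
          rw [hv']
          simp)
        simp at this
  · exfalso
    have hvk : Tch G {v} (fib f (nb i k)) := hor.resolve_left hdrop
    let f' : V → Option (Option (Fin 8)) := fun x => if x = v then some none else (f x).map some
    have e0 : fib f' none = {v} := by
      ext x
      show (if x = v then some none else (f x).map some) = some none ↔ x = v
      by_cases hx : x = v
      · simp [hx]
      · simp [hx]
    have e1 : ∀ b, fib f' (some b) = fib f b \ {v} := by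
      intro b
      ext x
      show (if x = v then some none else (f x).map some) = some (some b) ↔ f x = some b ∧ ¬ x = v
      by_cases hx : x = v
      · simp [hx]
      · simp [hx]
    have e2 : ∀ b, b ≠ i → fib f' (some b) = fib f b := by
      intro b hb
      rw [e1]
      exact Set.diff_singleton_eq_self (fun h => hsub0 b hb v h rfl)
    have hki : nb i k ≠ i := fun h => v8_irr i (by
      have := nb_adj i k
      rwa [h] at this)
    have hS : Model G (S i (nb i k)) f' := by
      constructor
      · rintro (_ | b)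
        · rw [e0]
          exact cn_single v
        · by_cases hb : b = i
          · subst hb
            rw [e1]
            exact hc
          · rw [e2 b hb]
            exact hM.c b
      · have key : ∀ b, b ≠ i → (b = nb i k → Tch G {v} (fib f' (some b))) ∧
            (v8 i b → b ≠ nb i k → Tch G (fib f i \ {v}) (fib f' (some b))) := by
          intro b hb
          rw [e2 b hb]
          refine ⟨fun h => h ▸ hvk, fun h h' => ?_⟩
          obtain ⟨l, rfl⟩ := nb_all i b h
          exact hk l (fun e => h' (e ▸ rfl))
        have keyv : Tch G {v} (fib f' (some i)) := by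
          rw [e1]
          exact htv.symm
        rintro (_ | a) (_ | b) h
        · exact h.elim
        · rw [e0]
          rcases h with rfl | rfl
          · exact keyv
          · exact (key _ hki).1 rfl
        · rw [e0]
          rcases h with rfl | rfl
          · exact keyv.symm
          · exact ((key _ hki).1 rfl).symm
        · obtain ⟨h1, h2, h3⟩ := h
          by_cases ha : a = i
          · subst ha
            have hb : b ≠ a := by
              rintro rfl
              exact v8_irr _ h1
            rw [e1 a]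
            exact (key b hb).2 h1 (fun e => h2 ⟨rfl, e⟩)
          · by_cases hb : b = i
            · subst hb
              rw [e1 b]
              exact ((key a ha).2 (v8_symm _ _ h1) (fun e => h3 ⟨e, rfl⟩)).symm
            · rw [e2 a ha, e2 b hb]
              exact hM.t a b h1
    exact v8a h3 h5 i (nb i k) (nb_adj i k) _ f' hS rfl

theorem exists_single [Finite V] (h3 : Conn3 G) (h5 : ¬ IsMinor (⊤ : SimpleGraph (Fin 5)) G) :
    ∀ (n : ℕ) (f : V → Option (Fin 8)), Model G v8 f → {x | f x ≠ none}.ncard = n →
      ∃ f : V → Option (Fin 8), Model G v8 f ∧ ∀ i a b, f a = some i → f b = some i → a = b := by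
  intro n
  induction n using Nat.strong_induction_on with
  | _ n ih =>
    intro f hM hn
    by_cases h : ∀ i a b, f a = some i → f b = some i → a = b
    · exact ⟨f, hM, h⟩
    · push Not at h
      obtain ⟨i, a, b, ha, hb, hab⟩ := h
      obtain ⟨f', hM', hlt⟩ := shrink h3 h5 hM ha hb hab
      exact ih _ (hn ▸ hlt) f' hM' rfl

theorem v8_three : ∀ a b c : Fin 8, a ≠ b → a ≠ c → b ≠ c → ¬ v8 a b ∨ ¬ v8 a c ∨ ¬ v8 b c := by
  decide

theorem all_some [Finite V] (h3 : Conn3 G) (h5 : ¬ IsMinor (⊤ : SimpleGraph (Fin 5)) G)
    {f : V → Option (Fin 8)} (hM : Model G v8 f)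
    (h1 : ∀ i a b, f a = some i → f b = some i → a = b) (y0 : V) : f y0 ≠ none := by
  classical
  intro hy0
  set D := clos G {x | f x = none} {y0} with hDdef
  have hy0' : ({y0} : Set V) ⊆ {x | f x = none} := by
    rintro _ rfl
    exact hy0
  have hD : (G.induce D).Connected := clos_conn (cn_single y0) hy0'
  have hDn : ∀ x ∈ D, f x = none := fun x hx => hx.1
  have hcl : Clo G {x | f x = none} D := clos_clo
  have hyD : y0 ∈ D := sub_clos hy0' rfl
  have hne : ∀ a, ∃ x, f x = some a := by
    intro a
    obtain ⟨x, hx⟩ := (cn_iff.1 (hM.c a)).1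
    exact ⟨x, hx⟩
  have hlab : ∀ x a, f x = some a → x ∉ D := by
    intro x a hx h
    rw [hDn x h] at hx
    cases hx
  have out : ∀ s t, s ∉ D → t ∉ D → ∃ x ∈ D, ∃ y, G.Adj x y ∧ (∃ b, f y = some b) ∧ y ≠ s ∧
      y ≠ t := by
    intro s t hs ht
    by_contra hno
    push Not at hno
    have hall := h3 s t D ⟨y0, hyD⟩ hs ht (by
      intro x hx y hxy
      rcases hfy : f y with _ | b
      · exact Or.inl (hcl x hx y hfy hxy)
      · by_cases hys : y = s
        · exact Or.inr (Or.inl hys)
        · exact Or.inr (Or.inr (hno x hx y hxy ⟨b, hfy⟩ hys)))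
    obtain ⟨u0, hu0⟩ := hne 0
    obtain ⟨u1, hu1⟩ := hne 1
    obtain ⟨u2, hu2⟩ := hne 2
    have a01 : u0 ≠ u1 := by
      rintro rfl
      rw [hu0] at hu1
      exact absurd (Option.some.inj hu1) (by decide)
    have a02 : u0 ≠ u2 := by
      rintro rfl
      rw [hu0] at hu2
      exact absurd (Option.some.inj hu2) (by decide)
    have a12 : u1 ≠ u2 := by
      rintro rfl
      rw [hu1] at hu2
      exact absurd (Option.some.inj hu2) (by decide)
    have b0 := (hall u0).resolve_left (hlab _ _ hu0)
    have b1 := (hall u1).resolve_left (hlab _ _ hu1)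
    have b2 := (hall u2).resolve_left (hlab _ _ hu2)
    rcases b0 with b0 | b0 <;> rcases b1 with b1 | b1 <;> rcases b2 with b2 | b2 <;>
      first
        | exact a01 (b0.trans b1.symm)
        | exact a02 (b0.trans b2.symm)
        | exact a12 (b1.trans b2.symm)
  obtain ⟨u0, hu0⟩ := hne 0
  obtain ⟨x1, hx1, y1, e1, ⟨b1, hb1⟩, -, -⟩ := out u0 u0 (hlab _ _ hu0) (hlab _ _ hu0)
  obtain ⟨x2, hx2, y2, e2, ⟨b2, hb2⟩, n21, -⟩ := out y1 y1 (hlab _ _ hb1) (hlab _ _ hb1)
  obtain ⟨x3, hx3, y3, e3, ⟨b3, hb3⟩, n31, n32⟩ := out y1 y2 (hlab _ _ hb1) (hlab _ _ hb2)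
  have k12 : b1 ≠ b2 := by
    rintro rfl
    exact n21 (h1 _ _ _ hb2 hb1)
  have k13 : b1 ≠ b3 := by
    rintro rfl
    exact n31 (h1 _ _ _ hb3 hb1)
  have k23 : b2 ≠ b3 := by
    rintro rfl
    exact n32 (h1 _ _ _ hb3 hb2)
  have t1 : Tch G D (fib f b1) := ⟨x1, hx1, y1, hb1, e1⟩
  have t2 : Tch G D (fib f b2) := ⟨x2, hx2, y2, hb2, e2⟩
  have t3 : Tch G D (fib f b3) := ⟨x3, hx3, y3, hb3, e3⟩
  have fin : ∀ a b : Fin 8, a ≠ b → ¬ v8 a b → Tch G D (fib f a) → Tch G D (fib f b) → False := by
    intro a b hab hn ta tb
    have hJ := hM.join hD hDn a ta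
    refine h5 (chord hJ hab hn (tb.mono ?_ ?_))
    · intro x hx
      show (if x ∈ D then some a else f x) = some a
      rw [if_pos hx]
    · intro x hx
      have hxD : x ∉ D := hlab x b hx
      show (if x ∈ D then some a else f x) = some b
      rw [if_neg hxD]
      exact hx
  rcases v8_three b1 b2 b3 k12 k13 k23 with h | h | h
  · exact fin _ _ k12 h t1 t2
  · exact fin _ _ k13 h t1 t3
  · exact fin _ _ k23 h t2 t3

/-- a labelling from a model -/
theorem exists_model (h : IsMinor W.V8 G) : ∃ f : V → Option (Fin 8), Model G v8 f := by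
  classical
  obtain ⟨μ, hc, hd, ht⟩ := h
  let f : V → Option (Fin 8) := fun x => if h : ∃ a, x ∈ μ a then some h.choose else none
  have hf : ∀ a, fib f a = μ a := by
    intro a
    ext x
    show (if h : ∃ a, x ∈ μ a then some h.choose else none) = some a ↔ x ∈ μ a
    constructor
    · intro h
      by_cases h' : ∃ a, x ∈ μ a
      · rw [dif_pos h'] at h
        have := h'.choose_spec
        rwa [Option.some.inj h] at this
      · rw [dif_neg h'] at h
        cases h
    · intro h
      have h' : ∃ a, x ∈ μ a := ⟨a, h⟩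
      rw [dif_pos h']
      congr 1
      by_contra hne
      exact Set.disjoint_left.1 (hd _ _ hne) h'.choose_spec h
  refine ⟨f, fun a => ?_, fun a b hab => ?_⟩
  · rw [hf]
    exact hc a
  · rw [hf, hf]
    exact ht a b ((v8_iff a b).2 hab)

/-- the vertices are in bijection with `Fin 8` -/
theorem v8_full [Finite V] (h3 : Conn3 G) (h8 : IsMinor W.V8 G)
    (h5 : ¬ IsMinor (⊤ : SimpleGraph (Fin 5)) G) :
    ∃ g : V ≃ Fin 8, ∀ x y, G.Adj x y ↔ W.V8.Adj (g x) (g y) := by
  classical
  obtain ⟨f0, hM0⟩ := exists_model h8
  obtain ⟨f, hM, h1⟩ := exists_single h3 h5 _ f0 hM0 rfl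
  have hs := all_some h3 h5 hM h1
  choose g hg using fun x => Option.ne_none_iff_exists'.1 (hs x)
  have hbij : Function.Bijective g := by
    constructor
    · intro x y hxy
      exact h1 (g x) x y (hg x) (by rw [hxy]; exact hg y)
    · intro a
      obtain ⟨x, hx⟩ := (cn_iff.1 (hM.c a)).1
      exact ⟨x, Option.some.inj ((hg x).symm.trans hx)⟩
  refine ⟨Equiv.ofBijective g hbij, fun x y => ?_⟩
  show G.Adj x y ↔ W.V8.Adj (g x) (g y)
  rw [v8_iff]
  constructor
  · intro hxy
    by_contra hn
    exact h5 (chord hM (fun h => hxy.ne (hbij.1 h)) hn ⟨x, hg x, y, hg y, hxy⟩)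
  · intro h
    obtain ⟨x', hx', y', hy', hxy⟩ := hM.t _ _ h
    rw [h1 _ x x' (hg x) hx', h1 _ y y' (hg y) hy']
    exact hxy

theorem v8Stmt : W.V8Stmt := by
  intro V _ G h3 h8 h5
  obtain ⟨g, -⟩ := v8_full h3 h8 h5
  rw [Nat.card_congr g, Nat.card_eq_fintype_card, Fintype.card_fin]

end Vale.Agent.P235.K5.H381
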